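import Vale.Agent.P134.LI.Defs

/-! P134, package R3: exact statements for the assembly of `StS3` from `StSLAB` (localised stability,
slab form) and `StFIALA` (polyhedral Fiala inequality, slab form). -/

set_option linter.all false

namespace Vale.Agent.P134.ASM

open Vale.Agent.P134 Vale.Agent.P134.SM Vale.Agent.P134.LI MeasureTheory Filter Topology

/-- A chain `c 0, ..., c m` of points of the slab `{|p| ≤ S}` which starts within distance `L` of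
`B` and has steps `≤ r`. -/
structure IsCh (p : R3 → ℝ) (B : Set R3) (S L r : ℝ) (m : ℕ) (c : ℕ → R3) : Prop where
  start : ∃ b ∈ B, eno (c 0 - b) ≤ L
  slab : ∀ i, i ≤ m → |p (c i)| ≤ S
  step : ∀ i, i < m → eno (c (i + 1) - c i) ≤ r

/-- length of a chain. -/
noncomputable def clen (m : ℕ) (c : ℕ → R3) : ℝ := ∑ i ∈ Finset.range m, eno (c (i + 1) - c i)

/-- chain distance from `B`, truncated at `T` (`= T` if there is no chain). -/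
noncomputable def chd (p : R3 → ℝ) (B : Set R3) (S L r T : ℝ) (x : R3) : ℝ :=
  sInf (insert T {l | ∃ (m : ℕ) (c : ℕ → R3), IsCh p B S L r m c ∧ c m = x ∧ l = clen m c})

/-- `Φ(t) = ∫_t^R (r - t) h(r) dr`. -/
noncomputable def Ph (h : ℝ → ℝ) (R t : ℝ) : ℝ := ∫ r in t..R, (r - t) * h r

open Classical in
/-- Polyhedral Fiala inequality in slab form (`h = F'²`, jumps allowed). Obtained from `PX.StFIALA`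
with `s = s1 + 2` and the level weights `W t = 1` on `{|c| < s1 + t}`, `0` outside. -/
def StFIALA : Prop := ∃ C0 : ℝ, 0 < C0 ∧ ∀ e s1 : ℝ, 0 < e → e ≤ 1 → 1 ≤ s1 →
  ∃ e0 r1 L00 : ℝ, 0 < e0 ∧ 0 < r1 ∧ 0 < L00 ∧ ∀ L0 : ℝ, L00 ≤ L0 → ∃ C : ℝ, 1 ≤ C ∧
  ∀ p : R3 → ℝ, ContDiff ℝ 2 p → (∀ x, gs p x ≤ 1) →
  (∃ K, ∀ x, |p x| ≤ s1 + 12 → hs p x ≤ K) →
  ∀ B : Set R3, Latt B →
  (∀ x, |p x| ≤ s1 + 12 → Far B L0 x → ∃ n : R3, esq n = 1 ∧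
      ∀ y, eno (y - x) ≤ r1 → eno (fun i => pd i p y - n i) ≤ e0) →
  ∀ (h : ℝ → ℝ) (R1 : ℝ), (∀ t, 0 ≤ h t) → AntitoneOn h (Set.Ici 0) → 1 ≤ R1 →
  (∀ t, R1 ≤ t → h t = 0) →
  ∀ lam T : ℝ, 0 < lam → lam * R1 ≤ e0 → 10 * (R1 + C) ≤ T →
  (∫ x, (if |p x| < s1 then 1 else 0) *
      (wn p x * h ((1 + e) * chd p B (s1 + 10) (2 * L0) 2 T x + C) * Gw lam x ^ 2))
    ≤ C * Ph h R1 0 * ∑' b : B, Gw lam b ^ 2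
      + ∫ x, (if |p x| < s1 + 8 ∧ Far B L0 x then 1 else 0) *
          ((7 / 2 * hs p x + C0 * (lap p x ^ 2 + ∑ i, (∑ j, pd i (pd j p) x * pd j p x) ^ 2)) *
            Ph h R1 (max 0 ((1 - e) * chd p B (s1 + 10) (2 * L0) 2 T x - C)) * Gw lam x ^ 2)

/-- Profiles. `h` is the weight for `StFIALA`, `P` (up to the cut-off) the primitive of `√h`; with
`F(t) = (1+t/T)^{-γ}(1+t/T₂)^{-k}`, `γ + k = 0.55`, `h = F'²` cut off near `R1`,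
`P(t) = F((1+e)(σ(t)+2)+C) / F(2(1+e)+C) * cut(t)`, `cut = 1` for `t ≤ 2 R1`, `σ` a `C¹` function with
`σ = 0` for `t ≤ 0`, `t - 1/2 ≤ σ ≤ t`, `0 ≤ σ' ≤ 1` for `t ≥ 0`. -/
def StPROF : Prop := ∀ e C ε : ℝ, 0 < e → e ≤ 1 / 1000 → 1 ≤ C → 0 < ε →
  ∃ (R1 : ℝ) (h P : ℝ → ℝ), 1 ≤ R1 ∧
    ContDiff ℝ 1 h ∧ (∀ t, 0 ≤ h t) ∧ AntitoneOn h (Set.Ici 0) ∧ (∀ t, R1 ≤ t → h t = 0) ∧
    (∀ t, 0 ≤ t → |deriv h t| ≤ ε * h t + ε / R1 ^ 3) ∧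
    ContDiff ℝ 1 P ∧ (∀ t, 0 ≤ P t ∧ P t ≤ 1) ∧ (∀ t, t ≤ 0 → P t = 1) ∧
    (∀ t, 4 * R1 ≤ t → P t = 0) ∧ (∀ t, |deriv P t| ≤ ε) ∧
    (∀ t, 0 ≤ t → deriv P t ^ 2 ≤ (1 + 10 * e + ε) * h ((1 + e) * (t + 1) + C) + ε / R1 ^ 3) ∧
    (∀ t, 0 ≤ t → h ((1 + e) * (t + 1) + C) ≤ ε * P t ^ 2) ∧
    Ph h R1 0 ≤ ε ∧
    (∀ t t', 0 ≤ t → t - 1 ≤ t' → Ph h R1 (max 0 ((1 - e) * t' - C)) ≤ 135 / 1000 * P t ^ 2)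

/-- Mollified chain metric (mollify `chd` at a scale `≤ 1/8`). -/
def StMET : Prop := ∀ p : R3 → ℝ, ContDiff ℝ 2 p → (∀ x, gs p x ≤ 1) → ∀ B : Set R3, Latt B →
  ∀ S L r T : ℝ, 1 ≤ S → 1 ≤ L → 1 ≤ r → 0 < T →
  Measurable (chd p B S L r T) ∧ (∀ x, 0 ≤ chd p B S L r T x ∧ chd p B S L r T x ≤ T) ∧
  (∀ x R, R ≤ T → chd p B S L r T x < R → ¬ Far B (R + L) x) ∧
  ∃ rs : R3 → ℝ, ContDiff ℝ 1 rs ∧ (∀ x, 0 ≤ rs x ∧ rs x ≤ T) ∧ (∃ K, ∀ x, gs rs x ≤ K) ∧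
    (∀ x, |p x| ≤ S - 1 / 4 → gs rs x ≤ 1) ∧
    (∀ x, |p x| ≤ S - 1 / 4 → |rs x - chd p B S L r T x| ≤ 1) ∧
    (∀ x, |p x| ≤ S - 1 / 4 → ¬ Far B (L - 1) x → rs x = 0)

/-- level weights: `1` for `|t| ≤ s - 1`, `0` for `|t| ≥ s`; `∫ wS s = 2 s - 1`. -/
noncomputable def wS (s t : ℝ) : ℝ := max 0 (min 1 (s - |t|))

/- Use in the assembly: `S = s1 + 10` in `StMET`, `w = wS (s1 + 9)` in `StSLAB` (so `w = 1` on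
`|t| ≤ s1 + 8`), test function `η = Gw * (1 - θ(p) (1 - P(rs)))`, `θ = 1` on `|t| ≤ s1 + 9`,
`θ = 0` for `|t| ≥ s1 + 9.5`, and `StLEV` with `a = 9`. -/

/-- Level comparison, general form: test `div (Z(p) Dp g)`, `Z' = w - β v`, `|Z| ≤ M w`. -/
def StLEVg : Prop := ∀ (p g : R3 → ℝ) (w v Z : ℝ → ℝ) (β M s lam K : ℝ), ContDiff ℝ 2 p →
  (∀ x, gs p x ≤ 1) → 0 < lam → 0 ≤ M → Continuous w → Continuous v →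
  (∀ t, 0 ≤ w t ∧ w t ≤ 1) → (∀ t, 0 ≤ v t ∧ v t ≤ 1) →
  (∀ t, s ≤ |t| → w t = 0) → (∀ t, s ≤ |t| → v t = 0) →
  (∀ t, HasDerivAt Z (w t - β * v t) t) → (∀ t, |Z t| ≤ M * w t) →
  ContDiff ℝ 1 g → (∀ x, 0 ≤ g x ∧ g x ≤ K * Gw lam x ^ 2) →
  (∀ x, wn g x ≤ K * Gw lam x ^ 2) → (∀ x, |p x| ≤ s → |lap p x| ≤ K) →
  (∫ x, w (p x) * (gs p x * g x))
    ≤ β * (∫ x, v (p x) * (gs p x * g x)) + M * ∫ x, w (p x) * (|lap p x| * g x + wn g x)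

/-- Level comparison: special case of `StLEVg` with `Z' = wS (s1+a) - (2(s1+a)-1)/(2s1-1) wS s1`,
`Z` odd, `|Z| ≤ (a+1) wS (s1+a)`. -/
def StLEV : Prop := ∀ (p g : R3 → ℝ) (s1 a lam K : ℝ), ContDiff ℝ 2 p → (∀ x, gs p x ≤ 1) →
  2 ≤ s1 → 1 ≤ a → 0 < lam → ContDiff ℝ 1 g → (∀ x, 0 ≤ g x ∧ g x ≤ K * Gw lam x ^ 2) →
  (∀ x, wn g x ≤ K * Gw lam x ^ 2) → (∀ x, |p x| ≤ s1 + a → |lap p x| ≤ K) →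
  (∫ x, wS (s1 + a) (p x) * (gs p x * g x))
    ≤ (2 * (s1 + a) - 1) / (2 * s1 - 1) * (∫ x, wS s1 (p x) * (gs p x * g x))
      + (a + 1) * ∫ x, wS (s1 + a) (p x) * (|lap p x| * g x + wn g x)

open Classical in
/-- Volume of neighbourhoods of `B`. -/
def StVOL : Prop := ∃ Cv : ℝ, 0 < Cv ∧ ∀ B : Set R3, Latt B → ∀ R lam : ℝ, 1 ≤ R → 0 < lam →
  lam * R ≤ 1 → Summable (fun b : B => Gw lam b ^ 2) ∧ Integrable (fun x : R3 => Gw lam x ^ 2) ∧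
  (∫ x, (if Far B R x then 0 else 1) * Gw lam x ^ 2) ≤ Cv * R ^ 3 * ∑' b : B, Gw lam b ^ 2

/-- Pointwise bounds (from the Harnack block, H283/Har3). -/
def StHAR : Prop := ∃ C : ℝ, 0 < C ∧ ∀ u : R3 → ℝ, HS u → ∀ x,
  hs (phi u) x ≤ C * qq u x ∧ gs (qq u) x ≤ C * qq u x ^ 2 ∧
  (qq u x ≤ 1 / 2 → a2 u x ≤ C * qq u x ∧ hh u x ^ 2 ≤ C * qq u x ^ 2)

/-- `LI.StSLAB` with `|D²φ|²/2` in place of `(|A|² - H²)/2`. -/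
def StSLAB2 : Prop := ∀ CX ε s3 : ℝ, 0 < CX → 0 < ε → 0 < s3 → ∃ δ0 c2 : ℝ, 0 < δ0 ∧ 0 < c2 ∧
  ∀ c1 : ℝ, 0 < c1 → ∃ W0 : ℝ, 0 < W0 ∧ ∀ W : ℝ, W0 ≤ W → ∀ κ : ℝ, 0 < κ → ∃ lam0 : ℝ, 0 < lam0 ∧
  ∀ (u : R3 → ℝ), HS u → HypC CX (VV u) → ∀ B : Set R3, Latt B →
  (∀ x, |phi u x| ≤ s3 + 1 → Far B (W / 4) x → qq u x ≤ δ0) →
  (∀ b ∈ B, c1 ≤ ∫ x in {x | eno (x - b) ≤ 4}, ff u x ^ 3 * qq u x) →
  ∀ lam : ℝ, 0 < lam → lam ≤ lam0 → ∀ η : R3 → ℝ, ContDiff ℝ 1 η →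
  (∀ x, 0 ≤ η x ∧ η x ≤ Gw lam x) → (∃ M : ℝ, ∀ x, gs η x ≤ M * Gw lam x ^ 2) →
  (∀ x, ¬ Far B (4 * W) x → |phi u x| ≤ s3 → η x = Gw lam x) →
  ∀ w : ℝ → ℝ, Continuous w → (∀ s, 0 ≤ w s ∧ w s ≤ 1) → (∀ s, s3 ≤ |s| → w s = 0) →
  1 ≤ ∫ s, w s →
  c1 / 10000 * ∑' b : B, Gw lam b ^ 2
    + sig0 * (∫ x, iF B (2 * W) x * (w (phi u x) * rr u x *
        η x ^ 2 * (hs (phi u) x / 2 + c2 * qq u x)))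
    ≤ (1 + ε) * sig0 * (∫ x, w (phi u x) * rr u x * gs η x)
      + κ * ∫ x, w (phi u x) * rr u x * η x ^ 2

/-- small `q` at one point of the slab makes `Dφ` almost constant in a ball of given radius. -/
def StGOOD : Prop := ∀ S r e0 : ℝ, 0 < S → 0 < r → 0 < e0 → ∃ δ : ℝ, 0 < δ ∧ ∀ u : R3 → ℝ, HS u →
  ∀ x, |phi u x| ≤ S → qq u x ≤ δ → ∃ n : R3, esq n = 1 ∧
    ∀ y, eno (y - x) ≤ r → eno (fun i => pd i (phi u) y - n i) ≤ e0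

/-- a point with `q ≥ δ` carries a definite gain. -/
def StLOW : Prop := ∀ S δ : ℝ, 0 < S → 0 < δ → ∃ c1 : ℝ, 0 < c1 ∧ ∀ u : R3 → ℝ, HS u →
  ∀ x b, |phi u x| ≤ S → δ ≤ qq u x → eno (x - b) ≤ 1 →
    c1 ≤ ∫ y in {y | eno (y - b) ≤ 4}, ff u y ^ 3 * qq u y

/-- Algebra of `φ` (no constants). -/
def StALG : Prop := ∀ u : R3 → ℝ, HS u → ContDiff ℝ 2 (phi u) ∧ (∀ x, gs (phi u) x ≤ 1) ∧
  (∀ x, 0 ≤ qq u x) ∧ ContDiff ℝ 1 (qq u) ∧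
  (∀ x, lap (phi u) x = - (Real.sqrt 2 * u x * qq u x)) ∧
  (∀ x, ∑ i, (∑ j, pd i (pd j (phi u)) x * pd j (phi u) x) ^ 2 = gs (qq u) x / 4) ∧
  (∀ x, 1 / 2 ≤ rr u x → hs (phi u) x ≤ a2 u x + 2 * gs (qq u) x)

/-- No bad cell. -/
def StKEY : Prop := ∀ CX : ℝ, 0 < CX → ∃ S δ1 : ℝ, 0 < S ∧ 0 < δ1 ∧ ∀ c1 : ℝ, 0 < c1 →
  ∀ u : R3 → ℝ, HS u → HypC CX (VV u) → ∀ B : Set R3, Latt B →
  (∀ x, |phi u x| ≤ S → Far B 1 x → qq u x ≤ δ1) →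
  (∀ b ∈ B, c1 ≤ ∫ y in {y | eno (y - b) ≤ 4}, ff u y ^ 3 * qq u y) → B = ∅

end Vale.Agent.P134.ASM
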