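import Vale.Agent.P134.ASM.Defs
import Vale.Agent.P134.SM.Ibp
import Mathlib.Analysis.SpecialFunctions.JapaneseBracket
import Mathlib.Analysis.SpecialFunctions.Integrals.Basic

set_option linter.all false

/-! P134, package R3: the level comparison `StLEVg`, `StLEV`. -/

namespace Vale.Agent.P134.ASM

open Vale.Agent.P134 Vale.Agent.P134.SM Vale.Agent.P134.LI MeasureTheory Filter Topology

lemma Gw_pos (lam : ℝ) (x : R3) : 0 < Gw lam x := Real.exp_pos _

lemma Gw_continuous (lam : ℝ) : Continuous (Gw lam) := by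
  unfold Gw
  exact Real.continuous_exp.comp (continuous_const.mul (continuous_const.add continuous_esq).sqrt)

lemma one_add_norm_le (x : R3) : 1 + ‖x‖ ≤ 2 * Real.sqrt (1 + esq x) := by
  have h1 : 1 ≤ Real.sqrt (1 + esq x) := by
    rw [Real.one_le_sqrt]; have := esq_nonneg x; linarith
  have h2 : ‖x‖ ≤ Real.sqrt (1 + esq x) := by
    refine (norm_le_eno x).trans ?_
    unfold eno
    exact Real.sqrt_le_sqrt (by linarith)
  linarith

lemma Gw_sq_le {lam : ℝ} (hl : 0 < lam) (x : R3) :
    Gw lam x ^ 2 ≤ (24 / lam ^ 4) * (1 + ‖x‖) ^ (-(4:ℝ)) := by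
  set y := Real.sqrt (1 + esq x) with hy
  have hy0 : 0 ≤ y := Real.sqrt_nonneg _
  have h1 : (0:ℝ) < 1 + ‖x‖ := by have := norm_nonneg x; linarith
  have h2 := one_add_norm_le x
  have h3 : Gw lam x ^ 2 = Real.exp (-(2 * lam * y)) := by
    unfold Gw
    rw [← Real.exp_nat_mul]
    congr 1
    push_cast; ring
  have h4 := Real.pow_div_factorial_le_exp (2 * lam * y) (by positivity) 4
  have hf : ((Nat.factorial 4 : ℕ) : ℝ) = 24 := by norm_num [Nat.factorial]
  rw [hf] at h4
  have h5' : lam * (1 + ‖x‖) ≤ 2 * lam * y := by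
    have := mul_le_mul_of_nonneg_left h2 hl.le
    rw [← hy] at this; linarith
  have h5 : (lam * (1 + ‖x‖)) ^ 4 ≤ (2 * lam * y) ^ 4 := pow_le_pow_left₀ (by positivity) h5' 4
  rw [h3, Real.exp_neg, Real.rpow_neg h1.le]
  have h6 : (1 + ‖x‖) ^ (4:ℝ) = (1 + ‖x‖) ^ 4 := by
    rw [← Real.rpow_natCast]; norm_num
  rw [h6]
  have h7 : (lam * (1 + ‖x‖)) ^ 4 / 24 ≤ Real.exp (2 * lam * y) :=
    le_trans (by gcongr) h4
  have h8 : 0 < (lam * (1 + ‖x‖)) ^ 4 / 24 := by positivity
  calc (Real.exp (2 * lam * y))⁻¹ ≤ ((lam * (1 + ‖x‖)) ^ 4 / 24)⁻¹ := by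
        exact inv_anti₀ h8 h7
    _ = _ := by
        rw [mul_pow]; field_simp

lemma Gw_sq_integrable {lam : ℝ} (hl : 0 < lam) : Integrable (fun x : R3 => Gw lam x ^ 2) := by
  have h : Integrable (fun x : R3 => (1 + ‖x‖) ^ (-(4:ℝ))) :=
    integrable_one_add_norm (by simp; norm_num)
  refine (h.const_mul (24 / lam ^ 4)).mono' ((Gw_continuous lam).pow 2).aestronglyMeasurable
    (Eventually.of_forall fun x => ?_)
  rw [Real.norm_eq_abs, abs_of_nonneg (sq_nonneg _)]
  exact Gw_sq_le hl x

/-- Limit of cut-offs: if `∫ η_R f + ∫ e_R = 0` -/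
lemma tendsto_cut {f : R3 → ℝ} (hf : Integrable f) :
    Tendsto (fun N : ℕ => ∫ x, rc 0 (N + 1 : ℝ) x * f x) atTop (𝓝 (∫ x, f x)) := by
  refine tendsto_integral_of_dominated_convergence (fun x => ‖f x‖) ?_ hf.norm ?_ ?_
  · intro N
    exact (rc_continuous 0 _).aestronglyMeasurable.mul hf.aestronglyMeasurable
  · intro N
    refine Eventually.of_forall fun x => ?_
    rw [norm_mul, Real.norm_eq_abs, abs_of_nonneg (rc_nonneg _ _ _)]
    exact mul_le_of_le_one_left (norm_nonneg _) (rc_le_one _ _ _)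
  · refine Eventually.of_forall fun x => ?_
    refine tendsto_const_nhds.congr' ?_
    obtain ⟨N0, hN0⟩ := exists_nat_ge (Real.sqrt (dsq 0 x))
    filter_upwards [eventually_ge_atTop N0] with N hN
    have : x ∈ eb (0 : R3) (N + 1 : ℝ) := by
      rw [mem_eb_sqrt (by positivity)]
      have : (N0 : ℝ) ≤ N := by exact_mod_cast hN
      linarith
    rw [rc_one (by positivity) this, one_mul]

theorem LEVg : StLEVg := by
  intro p g w v Z β M s lam K hp hgp hlam hM hw hv hw01 hv01 hws hvs hZ hZM hg hg0 hwg hlap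
  obtain ⟨C, hC1, hC⟩ := exists_rc_bound 3
  have hp1 : ∀ i, ContDiff ℝ 1 (pd i p) := fun i => contDiff_pd_one hp
  have hpc : Continuous p := hp.continuous
  have hZd : Differentiable ℝ Z := fun t => (hZ t).differentiableAt
  have hZ' : deriv Z = fun t => w t - β * v t := by funext t; exact (hZ t).deriv
  have hZ1 : ContDiff ℝ 1 Z := by
    rw [contDiff_one_iff_deriv]
    refine ⟨hZd, ?_⟩
    rw [hZ']; exact hw.sub (continuous_const.mul hv)
  have hI := Gw_sq_integrable hlam
  -- sizes
  have hK : 0 ≤ K := by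
    have h := (hg0 0).1.trans (hg0 0).2
    have h2 : 0 < Gw lam (0:R3) ^ 2 := pow_pos (Gw_pos lam 0) 2
    by_contra hneg
    have := mul_neg_of_neg_of_pos (not_le.1 hneg) h2
    linarith
  have hwnp : ∀ x, wn p x ≤ 1 := fun x => Real.sqrt_le_one.2 (hgp x)
  have hpd : ∀ i x, |pd i p x| ≤ 1 := by
    intro i x
    have h1 : pd i p x ^ 2 ≤ gs p x :=
      Finset.single_le_sum (f := fun i => pd i p x ^ 2) (fun _ _ => sq_nonneg _) (Finset.mem_univ i)
    exact abs_le_one_iff_mul_self_le_one.2 (by nlinarith [hgp x])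
  have hgg : ∀ x, |gg p g x| ≤ wn g x := by
    intro x
    have h1 := gg_sq_le p g x
    have h2 : gg p g x ^ 2 ≤ gs g x := by
      calc _ ≤ gs p x * gs g x := h1
        _ ≤ 1 * gs g x := mul_le_mul_of_nonneg_right (hgp x) (gs_nonneg g x)
        _ = _ := one_mul _
    exact Real.abs_le_sqrt h2
  -- the fields
  have hX : ∀ i, ContDiff ℝ 1 (fun x => Z (p x) * g x * pd i p x) := fun i =>
    ((hZ1.comp (hp.of_le (by norm_num))).mul hg).mul (hp1 i)
  have hdiv : ∀ x, ∑ i, pd i (fun x => Z (p x) * g x * pd i p x) x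
      = (w (p x) - β * v (p x)) * (gs p x * g x) + Z (p x) * gg p g x
        + Z (p x) * (lap p x * g x) := by
    intro x
    have hd1 : DifferentiableAt ℝ p x := hp.differentiable (by norm_num) x
    have hdg : DifferentiableAt ℝ g x := hg.differentiable (by norm_num) x
    have hdZ : DifferentiableAt ℝ (fun x => Z (p x)) x := (hZd _).comp x hd1
    have e : ∀ i, pd i (fun x => Z (p x) * g x * pd i p x) x
        = (w (p x) - β * v (p x)) * pd i p x * g x * pd i p x + Z (p x) * pd i g x * pd i p x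
          + Z (p x) * g x * pd i (pd i p) x := by
      intro i
      have hdd : DifferentiableAt ℝ (fun x => Z (p x) * g x) x := hdZ.mul hdg
      rw [pd_mul hdd ((hp1 i).differentiable (by norm_num) x), pd_mul hdZ hdg,
        pd_comp (h := Z) (hZd _) hd1, hZ']
      ring
    simp_rw [e]
    rw [Finset.sum_add_distrib, Finset.sum_add_distrib]
    unfold gs gg lap
    simp only [Finset.mul_sum, Finset.sum_mul]
    congr 1
    · congr 1
      · exact Finset.sum_congr rfl fun i _ => by ring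
      · exact Finset.sum_congr rfl fun i _ => by ring
    · exact Finset.sum_congr rfl fun i _ => by ring
  -- integrability
  have hcgs : Continuous (gs p) := by
    unfold gs; exact continuous_finset_sum _ fun i _ => ((hp1 i).continuous).pow 2
  have hcgg : Continuous (gg p g) := by
    unfold gg; exact continuous_finset_sum _ fun i _ => ((hp1 i).continuous).mul (continuous_pd hg)
  have hclap : Continuous (lap p) := by
    unfold lap; exact continuous_finset_sum _ fun i _ => continuous_pd (hp1 i)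
  have hcwg : Continuous (wn g) := by
    unfold wn gs
    exact (continuous_finset_sum _ fun i _ => (continuous_pd hg).pow 2).sqrt
  have hint : ∀ (F : R3 → ℝ) (A : ℝ), Continuous F → (∀ x, |F x| ≤ A * Gw lam x ^ 2) →
      Integrable F := fun F A hF hb => (hI.const_mul A).mono' hF.aestronglyMeasurable
        (Eventually.of_forall hb)
  have hgsg : ∀ x, |gs p x * g x| ≤ K * Gw lam x ^ 2 := by
    intro x
    rw [abs_of_nonneg (mul_nonneg (gs_nonneg p x) (hg0 x).1)]
    exact (mul_le_of_le_one_left (hg0 x).1 (hgp x)).trans (hg0 x).2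
  have i1 : Integrable (fun x => w (p x) * (gs p x * g x)) := by
    refine hint _ K ((hw.comp hpc).mul (hcgs.mul hg.continuous)) fun x => ?_
    rw [abs_mul, abs_of_nonneg (hw01 _).1]
    exact (mul_le_of_le_one_left (abs_nonneg _) (hw01 _).2).trans (hgsg x)
  have i2 : Integrable (fun x => v (p x) * (gs p x * g x)) := by
    refine hint _ K ((hv.comp hpc).mul (hcgs.mul hg.continuous)) fun x => ?_
    rw [abs_mul, abs_of_nonneg (hv01 _).1]
    exact (mul_le_of_le_one_left (abs_nonneg _) (hv01 _).2).trans (hgsg x)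
  have hZ0 : ∀ t, s ≤ |t| → Z t = 0 := by
    intro t ht
    have := hZM t
    rw [hws t ht, mul_zero] at this
    exact abs_eq_zero.1 (le_antisymm this (abs_nonneg _))
  have hlg : ∀ x, w (p x) * (|lap p x| * g x) ≤ K * (K * Gw lam x ^ 2) := by
    intro x
    rcases le_or_gt s |p x| with h | h
    · rw [hws _ h, zero_mul]
      have := Gw_pos lam x; positivity
    · calc w (p x) * (|lap p x| * g x) ≤ 1 * (|lap p x| * g x) :=
            mul_le_mul_of_nonneg_right (hw01 _).2 (mul_nonneg (abs_nonneg _) (hg0 x).1)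
        _ ≤ K * (K * Gw lam x ^ 2) := by
            rw [one_mul]
            exact mul_le_mul (hlap x h.le) (hg0 x).2 (hg0 x).1 hK
  have i3 : Integrable (fun x => w (p x) * (|lap p x| * g x + wn g x)) := by
    refine hint _ (K * K + K) ((hw.comp hpc).mul ((hclap.abs.mul hg.continuous).add hcwg))
      fun x => ?_
    have hn : 0 ≤ wn g x := Real.sqrt_nonneg _
    rw [abs_of_nonneg (mul_nonneg (hw01 _).1 (add_nonneg (mul_nonneg (abs_nonneg _) (hg0 x).1) hn)),
      mul_add]
    have h2 : w (p x) * wn g x ≤ K * Gw lam x ^ 2 :=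
      (mul_le_of_le_one_left hn (hw01 _).2).trans (hwg x)
    have := hlg x
    calc _ ≤ K * (K * Gw lam x ^ 2) + K * Gw lam x ^ 2 := add_le_add this h2
      _ = _ := by ring
  -- the remainder function
  set rem : R3 → ℝ := fun x => Z (p x) * gg p g x + Z (p x) * (lap p x * g x) with hrem
  have hremb : ∀ x, |rem x| ≤ M * (w (p x) * (|lap p x| * g x + wn g x)) := by
    intro x
    have h1 : |Z (p x) * gg p g x| ≤ M * w (p x) * wn g x := by
      rw [abs_mul]
      exact mul_le_mul (hZM _) (hgg x) (abs_nonneg _) (mul_nonneg hM (hw01 _).1)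
    have h2 : |Z (p x) * (lap p x * g x)| ≤ M * w (p x) * (|lap p x| * g x) := by
      rw [abs_mul, abs_mul, abs_of_nonneg (hg0 x).1]
      exact mul_le_mul_of_nonneg_right (hZM _) (mul_nonneg (abs_nonneg _) (hg0 x).1)
    calc |rem x| ≤ _ := abs_add_le _ _
      _ ≤ M * w (p x) * wn g x + M * w (p x) * (|lap p x| * g x) := add_le_add h1 h2
      _ = _ := by ring
  have hcrem : Continuous rem := by
    rw [hrem]
    exact ((hZ1.continuous.comp hpc).mul hcgg).add
      ((hZ1.continuous.comp hpc).mul (hclap.mul hg.continuous))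
  have i4 : Integrable rem := (i3.const_mul M).mono' hcrem.aestronglyMeasurable
    (Eventually.of_forall hremb)
  -- total
  set tot : R3 → ℝ := fun x => (w (p x) * (gs p x * g x) - β * (v (p x) * (gs p x * g x))) + rem x
    with htot
  have i5 : Integrable tot := (i1.sub (i2.const_mul β)).add i4
  have hlim := tendsto_cut i5
  have hzero : Tendsto (fun N : ℕ => ∫ x, rc 0 (N + 1 : ℝ) x * tot x) atTop (𝓝 0) := by
    have hb : ∀ N : ℕ, |∫ x, rc 0 (N + 1 : ℝ) x * tot x|
        ≤ (3 * C * M * K * ∫ x : R3, Gw lam x ^ 2) * (1 / ((N : ℝ) + 1)) := by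
      intro N
      have hN : (0:ℝ) < N + 1 := by positivity
      have h1 : ∫ x, rc 0 (N + 1 : ℝ) x * tot x
          = - ∫ x, ∑ i, pd i (rc (0:R3) (N + 1 : ℝ)) x * (Z (p x) * g x * pd i p x) := by
        rw [← int_div (rc_contDiff (k := 1) 0 _) (rc_hasCompactSupport hN) hX]
        congr 1
        funext x
        rw [hdiv x]
        simp only [htot, hrem]
        ring
      rw [h1, abs_neg]
      have h2 : ∀ x, ‖∑ i, pd i (rc (0:R3) (N + 1 : ℝ)) x * (Z (p x) * g x * pd i p x)‖
          ≤ (3 * C * M * K * (1 / ((N : ℝ) + 1))) * Gw lam x ^ 2 := by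
        intro x
        have hz : |Z (p x)| ≤ M := (hZM _).trans (mul_le_of_le_one_right hM (hw01 _).2)
        calc ‖∑ i, pd i (rc (0:R3) (N + 1 : ℝ)) x * (Z (p x) * g x * pd i p x)‖
            ≤ ∑ i, ‖pd i (rc (0:R3) (N + 1 : ℝ)) x * (Z (p x) * g x * pd i p x)‖ :=
              norm_sum_le _ _
          _ ≤ ∑ i : Fin 3, (C / (N + 1)) * (M * (K * Gw lam x ^ 2) * 1) := by
              refine Finset.sum_le_sum fun i _ => ?_
              rw [Real.norm_eq_abs, abs_mul, abs_mul, abs_mul, abs_of_nonneg (hg0 x).1]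
              have a1 := (hC 0 (N + 1) x hN).1 i
              have a2 := hpd i x
              have a3 := (hg0 x).2
              have a4 : 0 ≤ K * Gw lam x ^ 2 := mul_nonneg hK (sq_nonneg _)
              have a5 : 0 ≤ C / (N + 1 : ℝ) := by positivity
              refine mul_le_mul a1 ?_ (by have := (hg0 x).1; positivity) a5
              refine mul_le_mul (mul_le_mul hz a3 (hg0 x).1 hM) a2 (abs_nonneg _) (by positivity)
          _ = _ := by
              rw [Finset.sum_const, Finset.card_univ, Fintype.card_fin, nsmul_eq_mul]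
              push_cast; ring
      have h3 := norm_integral_le_of_norm_le (hI.const_mul (3 * C * M * K * (1 / ((N : ℝ) + 1))))
        (Eventually.of_forall h2)
      rw [integral_const_mul, Real.norm_eq_abs] at h3
      refine h3.trans (le_of_eq (by ring))
    rw [tendsto_zero_iff_abs_tendsto_zero]
    refine squeeze_zero (fun N => abs_nonneg _) hb ?_
    have := (tendsto_one_div_add_atTop_nhds_zero_nat (𝕜 := ℝ)).const_mul
      (3 * C * M * K * ∫ x : R3, Gw lam x ^ 2)
    simpa using this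
  have htz : ∫ x, tot x = 0 := tendsto_nhds_unique hlim hzero
  have hsplit : ∫ x, tot x = (∫ x, w (p x) * (gs p x * g x))
      - β * (∫ x, v (p x) * (gs p x * g x)) + ∫ x, rem x := by
    have hsub : Integrable (fun x => w (p x) * (gs p x * g x) - β * (v (p x) * (gs p x * g x))) :=
      i1.sub (i2.const_mul β)
    simp only [htot]
    rw [integral_add hsub i4, integral_sub i1 (i2.const_mul β), integral_const_mul]
  have hremI : |∫ x, rem x| ≤ M * ∫ x, w (p x) * (|lap p x| * g x + wn g x) := by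
    have := norm_integral_le_of_norm_le (f := rem) (i3.const_mul M)
      (Eventually.of_forall fun x => by rw [Real.norm_eq_abs]; exact hremb x)
    rwa [integral_const_mul, Real.norm_eq_abs] at this
  have := neg_abs_le (∫ x, rem x)
  linarith

/-! ### The trapezoids -/

lemma wS_continuous (s : ℝ) : Continuous (wS s) := by
  unfold wS
  exact continuous_const.max (continuous_const.min (continuous_const.sub continuous_abs))

lemma wS_nonneg (s t : ℝ) : 0 ≤ wS s t := le_max_left _ _
lemma wS_le_one (s t : ℝ) : wS s t ≤ 1 := max_le zero_le_one (min_le_left _ _)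
lemma wS_neg (s t : ℝ) : wS s (-t) = wS s t := by unfold wS; rw [abs_neg]
lemma wS_one {s t : ℝ} (h : |t| ≤ s - 1) : wS s t = 1 := by
  unfold wS
  rw [min_eq_left (by linarith), max_eq_right zero_le_one]
lemma wS_mid {s t : ℝ} (h1 : s - 1 ≤ |t|) (h2 : |t| ≤ s) : wS s t = s - |t| := by
  unfold wS
  rw [min_eq_right (by linarith), max_eq_right (by linarith)]
lemma wS_zero {s t : ℝ} (h : s ≤ |t|) : wS s t = 0 := by
  unfold wS
  rw [max_eq_left]
  exact (min_le_right _ _).trans (by linarith)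

/-- primitive of the trapezoid -/
noncomputable def Wp (s t : ℝ) : ℝ := ∫ τ in (0:ℝ)..t, wS s τ

lemma wS_ii (s a b : ℝ) : IntervalIntegrable (wS s) volume a b :=
  (wS_continuous s).intervalIntegrable a b

lemma Wp_hasDerivAt (s t : ℝ) : HasDerivAt (Wp s) (wS s t) t :=
  intervalIntegral.integral_hasDerivAt_right (wS_ii s 0 t)
    (wS_continuous s).stronglyMeasurable.stronglyMeasurableAtFilter (wS_continuous s).continuousAt

lemma Wp_neg (s t : ℝ) : Wp s (-t) = - Wp s t := by
  unfold Wp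
  have h := intervalIntegral.integral_comp_neg (a := 0) (b := t) (fun τ => wS s τ)
  simp only [wS_neg, neg_zero] at h
  rw [h, ← intervalIntegral.integral_symm]

lemma Wp_low {s t : ℝ} (h0 : 0 ≤ t) (h : t ≤ s - 1) : Wp s t = t := by
  unfold Wp
  have : ∫ τ in (0:ℝ)..t, wS s τ = ∫ τ in (0:ℝ)..t, (1:ℝ) := by
    refine intervalIntegral.integral_congr fun τ hτ => ?_
    rw [Set.uIcc_of_le h0] at hτ
    exact wS_one (by rw [abs_of_nonneg hτ.1]; linarith [hτ.2])
  rw [this]; simp

lemma Wp_mid {s t : ℝ} (hs : 1 ≤ s) (h1 : s - 1 ≤ t) (h2 : t ≤ s) :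
    Wp s t = s - 1 / 2 - (s - t) ^ 2 / 2 := by
  have h0 : (0:ℝ) ≤ s - 1 := by linarith
  have e1 : Wp s t = Wp s (s - 1) + ∫ τ in (s - 1)..t, wS s τ := by
    unfold Wp
    rw [intervalIntegral.integral_add_adjacent_intervals (wS_ii _ _ _) (wS_ii _ _ _)]
  have e2 : ∫ τ in (s - 1)..t, wS s τ = ∫ τ in (s - 1)..t, (s - τ) := by
    refine intervalIntegral.integral_congr fun τ hτ => ?_
    rw [Set.uIcc_of_le h1] at hτ
    have hτ0 : 0 ≤ τ := h0.trans hτ.1
    rw [wS_mid (by rw [abs_of_nonneg hτ0]; exact hτ.1)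
      (by rw [abs_of_nonneg hτ0]; exact hτ.2.trans h2), abs_of_nonneg hτ0]
  rw [e1, Wp_low h0 le_rfl, e2, intervalIntegral.integral_sub (by simp) (by simp), integral_id]
  simp
  ring

lemma Wp_high {s t : ℝ} (hs : 1 ≤ s) (h : s ≤ t) : Wp s t = s - 1 / 2 := by
  have e1 : Wp s t = Wp s s + ∫ τ in s..t, wS s τ := by
    unfold Wp
    rw [intervalIntegral.integral_add_adjacent_intervals (wS_ii _ _ _) (wS_ii _ _ _)]
  have e2 : ∫ τ in s..t, wS s τ = ∫ τ in s..t, (0:ℝ) := by
    refine intervalIntegral.integral_congr fun τ hτ => ?_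
    rw [Set.uIcc_of_le h] at hτ
    exact wS_zero (by rw [abs_of_nonneg (by linarith [hτ.1])]; exact hτ.1)
  rw [e1, Wp_mid hs (by linarith) le_rfl, e2]
  simp

lemma Z_bound {a b : ℝ} (ha : 1 ≤ a) (hab : a ≤ b) {t : ℝ} (ht : 0 ≤ t) :
    |Wp b t - (2 * b - 1) / (2 * a - 1) * Wp a t| ≤ (b - a + 1) * wS b t := by
  have hs1 : (0:ℝ) < 2 * a - 1 := by linarith
  set β := (2 * b - 1) / (2 * a - 1) with hβ
  have hβs : β * (2 * a - 1) = 2 * b - 1 := by rw [hβ]; field_simp
  have hβ1 : 1 ≤ β := by rw [hβ, le_div_iff₀ hs1]; linarith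
  have hβ2 : β - 1 ≤ 2 * (b - a) := by
    have : (β - 1) * (2 * a - 1) = 2 * (b - a) := by linarith
    nlinarith
  rcases le_total b t with h5 | h5
  · rw [Wp_high (by linarith) h5, Wp_high ha (by linarith),
      wS_zero (by rw [abs_of_nonneg ht]; exact h5), mul_zero]
    have : b - 1 / 2 - β * (a - 1 / 2) = 0 := by nlinarith
    rw [this, abs_zero]
  rcases le_total t (a - 1) with h1 | h1
  · rw [Wp_low ht (by linarith), Wp_low ht h1, wS_one (by rw [abs_of_nonneg ht]; linarith)]
    have h3 : (β - 1) * (2 * a - 1) = 2 * (b - a) := by linarith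
    have h4 : (β - 1) * t ≤ (β - 1) * (a - 1) := mul_le_mul_of_nonneg_left h1 (by linarith)
    have h6 : 0 ≤ (β - 1) * t := mul_nonneg (by linarith) ht
    rw [abs_le]
    constructor <;> nlinarith
  rcases le_total t a with h2 | h2
  · rcases le_total t (b - 1) with h3 | h3
    · rw [Wp_low ht h3, Wp_mid ha h1 h2, wS_one (by rw [abs_of_nonneg ht]; linarith), abs_le]
      have h6 : 0 ≤ (a - t) ^ 2 := sq_nonneg _
      have h7 : (a - t) ^ 2 ≤ 1 := by nlinarith
      have h8 : β * (a - t) ^ 2 ≤ β * 1 := mul_le_mul_of_nonneg_left h7 (by linarith)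
      have h9 : 0 ≤ β * (a - t) ^ 2 := mul_nonneg (by linarith) h6
      constructor <;> nlinarith
    · rw [Wp_mid (by linarith) h3 h5, Wp_mid ha h1 h2,
        wS_mid (by rw [abs_of_nonneg ht]; exact h3) (by rw [abs_of_nonneg ht]; exact h5),
        abs_of_nonneg ht, abs_le]
      have h6 : 0 ≤ (a - t) ^ 2 := sq_nonneg _
      have h7 : (a - t) ^ 2 ≤ (b - t) ^ 2 := by
        apply pow_le_pow_left₀ (by linarith); linarith
      have h8 : (b - t) ^ 2 ≤ b - t := by nlinarith
      have h9 : 0 ≤ β * (a - t) ^ 2 := mul_nonneg (by linarith) h6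
      have h10 : β * (a - t) ^ 2 ≤ β * (b - t) ^ 2 :=
        mul_le_mul_of_nonneg_left h7 (by linarith)
      have h11 : (β - 1) * (b - t) ^ 2 ≤ 2 * (b - a) * (b - t) :=
        mul_le_mul hβ2 h8 (sq_nonneg _) (by linarith)
      have h12 : b - 1 / 2 = β * (a - 1 / 2) := by nlinarith
      have h13 : 0 ≤ (b - a) * (b - t) := mul_nonneg (by linarith) (by linarith)
      constructor <;> nlinarith
  rcases le_total t (b - 1) with h3 | h3
  · rw [Wp_low ht h3, Wp_high ha h2, wS_one (by rw [abs_of_nonneg ht]; linarith), abs_le]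
    constructor <;> nlinarith
  · rw [Wp_mid (by linarith) h3 h5, Wp_high ha h2,
      wS_mid (by rw [abs_of_nonneg ht]; exact h3) (by rw [abs_of_nonneg ht]; exact h5),
      abs_of_nonneg ht, abs_le]
    have h8 : (b - t) ^ 2 ≤ b - t := by nlinarith
    have h12 : b - 1 / 2 = β * (a - 1 / 2) := by nlinarith
    have h13 : 0 ≤ (b - a) * (b - t) := mul_nonneg (by linarith) (by linarith)
    have h14 : 0 ≤ (b - t) ^ 2 := sq_nonneg _
    constructor <;> nlinarith

/-- Level comparison for trapezoids `1 ≤ a ≤ b`. -/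
theorem LEVab (p g : R3 → ℝ) (a b lam K : ℝ) (hp : ContDiff ℝ 2 p) (hgp : ∀ x, gs p x ≤ 1)
    (ha : 1 ≤ a) (hab : a ≤ b) (hlam : 0 < lam) (hg : ContDiff ℝ 1 g)
    (hg0 : ∀ x, 0 ≤ g x ∧ g x ≤ K * Gw lam x ^ 2) (hwg : ∀ x, wn g x ≤ K * Gw lam x ^ 2)
    (hlap : ∀ x, |p x| ≤ b → |lap p x| ≤ K) :
    (∫ x, wS b (p x) * (gs p x * g x))
      ≤ (2 * b - 1) / (2 * a - 1) * (∫ x, wS a (p x) * (gs p x * g x))
        + (b - a + 1) * ∫ x, wS b (p x) * (|lap p x| * g x + wn g x) := by
  refine LEVg p g (wS b) (wS a) (fun t => Wp b t - (2 * b - 1) / (2 * a - 1) * Wp a t)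
    ((2 * b - 1) / (2 * a - 1)) (b - a + 1) b lam K hp hgp hlam (by linarith)
    (wS_continuous _) (wS_continuous _) (fun t => ⟨wS_nonneg _ _, wS_le_one _ _⟩)
    (fun t => ⟨wS_nonneg _ _, wS_le_one _ _⟩) (fun t ht => wS_zero ht)
    (fun t ht => wS_zero (by linarith)) (fun t => ?_) (fun t => ?_) hg hg0 hwg hlap
  · exact (Wp_hasDerivAt _ t).sub ((Wp_hasDerivAt _ t).const_mul _)
  · rcases le_total 0 t with h | h
    · exact Z_bound ha hab h
    · have h2 := Z_bound ha hab (t := -t) (by linarith)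
      rw [Wp_neg, Wp_neg, wS_neg] at h2
      have e : -Wp b t - (2 * b - 1) / (2 * a - 1) * -Wp a t
          = -(Wp b t - (2 * b - 1) / (2 * a - 1) * Wp a t) := by ring
      rw [e, abs_neg] at h2
      exact h2

theorem LEV : StLEV := by
  intro p g s1 a lam K hp hgp hs ha hlam hg hg0 hwg hlap
  have h := LEVab p g s1 (s1 + a) lam K hp hgp (by linarith) (by linarith) hlam hg hg0 hwg hlap
  have e : s1 + a - s1 + 1 = a + 1 := by ring
  rw [e] at h
  exact h

end Vale.Agent.P134.ASM
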