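import Vale.Agent.P134.ASM.Defs
import Vale.Agent.P134.LI.Stm2

set_option linter.all false

/-! P134, package R3: `StVOL` from `StGw`. -/

namespace Vale.Agent.P134.ASM

open Vale.Agent.P134 Vale.Agent.P134.SM Vale.Agent.P134.LI MeasureTheory Filter Topology

lemma isOpen_not_far (B : Set R3) (r : ℝ) : IsOpen {x : R3 | ¬ Far B r x} := by
  have : {x : R3 | ¬ Far B r x} = ⋃ b ∈ B, {x | eno (x - b) < r} := by
    ext x
    simp [Far]
  rw [this]
  exact isOpen_biUnion fun b _ => isOpen_lt (continuous_eno.comp (continuous_id.sub continuous_const))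
    continuous_const

open Classical in
lemma int_not_far (B : Set R3) (r : ℝ) (F : R3 → ℝ) :
    ∫ x, (if Far B r x then 0 else 1) * F x = ∫ x in {x | ¬ Far B r x}, F x := by
  rw [← integral_indicator (isOpen_not_far B r).measurableSet]
  congr 1
  funext x
  by_cases h : Far B r x
  · have : x ∉ {x | ¬ Far B r x} := fun h' => h' h
    rw [Set.indicator_of_notMem this, if_pos h, zero_mul]
  · have : x ∈ {x | ¬ Far B r x} := h
    rw [Set.indicator_of_mem this, if_neg h, one_mul]

theorem VOL_of (h : StGw) : StVOL := by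
  refine ⟨8 * Real.exp 2, by positivity, fun B hB R lam hR hlam hlR => ?_⟩
  have hl1 : lam ≤ 1 := by nlinarith
  obtain ⟨-, -, -, -, h5, h6, h7, -⟩ := h lam hlam hl1
  refine ⟨h6 B hB, h5, ?_⟩
  rw [int_not_far]
  refine (h7 B hB R (by linarith)).trans ?_
  have hs : 0 ≤ ∑' b : B, Gw lam b ^ 2 := tsum_nonneg fun b => sq_nonneg _
  have he : Real.exp (2 * lam * R) ≤ Real.exp 2 := Real.exp_le_exp.2 (by nlinarith)
  refine mul_le_mul_of_nonneg_right ?_ hs
  have hR3 : 0 ≤ R ^ 3 := by positivity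
  calc 8 * R ^ 3 * Real.exp (2 * lam * R) ≤ 8 * R ^ 3 * Real.exp 2 := by gcongr
    _ = _ := by ring

end Vale.Agent.P134.ASM
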